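import Vale.Agent.P123.Defs
import Vale.Agent.P123.Main

namespace Vale.Agent.Results.P123.Crouzeix

universe u

/-- Crouzeix's conjecture: `2` is the least constant `C` such that
`‖P(A)‖ ≤ C * sup_{z ∈ W(A)} |P(z)|` for every nonzero complex Hilbert space `H`, every bounded
operator `A` on `H` and every complex polynomial `P`. -/
theorem result :
    IsLeast {C : ℝ | ∀ (H : Type u) [NormedAddCommGroup H] [InnerProductSpace ℂ H]
      [CompleteSpace H] [Nontrivial H] (A : H →L[ℂ] H) (P : Polynomial ℂ),
      ‖Polynomial.aeval A P‖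
        ≤ C * sSup ((fun z : ℂ => ‖P.eval z‖) '' Vale.Agent.P123.numericalRange A)} 2 :=
  ⟨fun _ _ _ _ _ A P => Vale.Agent.P123.crouzeix A P,
    fun C hC => Vale.Agent.P123.two_le_of_bound C hC⟩

end Vale.Agent.Results.P123.Crouzeix
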